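import Vale.Agent.P275IX.Bun
import Vale.Agent.P275TB.Xi
import Vale.Agent.P275XI.Lpb

/-!
# P275, the weights of the Chern classes on the flat bundles of the Betti varieties
-/

set_option linter.unusedSectionVars false

open Set Function Topology Matrix
open Vale.Agent.P275Z Vale.Agent.P275BW Vale.Agent.P275CH Vale.Agent.P275B Vale.Agent.P275TB
  Vale.Agent.P275MC Vale.Agent.P275XI
open Vale.Agent.P275FM (Grd)
open Vale.Agent.P275LB (locP)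
open Vale.Agent.P275RG (Alg ps_kah)
open Vale.Agent.P275ST (dimR)
open Vale.Agent.P275XB (Ok)
open Vale.Agent.P281Z.Hg (Smo)
open P275S (c1_mem)

noncomputable section

namespace Vale.Agent.P275IX

variable {n g k a a' r D D' E E' b : ℕ} {d : ℤ} {J : Type} [Fintype J] {m : J → Fin n → ℤ}
  {μ χ : Fin n → ℤ} {B : Mn b} {c : Cv B} {t : c.ι → c.ι → Aut g n} [Ok g n d]
  {Y : BN g k d (le_refl (bor n)) a D'} {F : Fl c Y.vr D}
  {X : BB g k d (bor n) m 1 (T0 n J) a' E'} {FX : Fl c X.vr E} (ht : Fc k d t)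
  (hF : Lf F (BFr.pt _) fun i j => bap (t i j))
  (hX : Lf FX (ptB (bor n) m 1) fun i j => apB (t i j))

theorem fc_D {C : Type} [TopologicalSpace C] {A : P275GC.At C} {l : P275NA.Cy A ℂ}
    (R : RHD A l g n d) (ι : c.ι → Fin R.N) (hV : ∀ i j k, (c.V i ∩ c.V j ∩ c.V k).Nonempty →
      (R.V (ι i) ∩ R.V (ι j) ∩ R.V (ι k)).Nonempty) : Fc k d fun i j => R.t (ι j) (ι i) :=
  ⟨fun i ⟨x, h⟩ p => let ⟨_, h⟩ := hV i i i ⟨x, ⟨h, h⟩, h⟩
    coc_one R (τ := tauZ n k) (fun _ => nk_bor) h.2 p, P275LB.coc_D R ι hV⟩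

include ht in
theorem Fc.anti {k' : ℕ} (hk : nk n k' ≤ nk n k) : Fc k' d t :=
  ⟨fun i u p => ht.one i u (inF hk p), fun i j r u p => ht.mul i j r u (inF hk p)⟩

include ht hX in
theorem loc (hm : ∀ j, ∑ a, m j a = 0) (μ : Fin n → ℤ) (hμ : ∑ a, μ a = 0) (ε : ℤ) :
    Loc (prT FX (ptB (bor n) m 1)) (TT (fun i j => apB (t i j)) (TB m 1 μ ε)) :=
  locT hX ht.trB (locP X hm hμ)

include hF hX in
theorem ex_pr : ∃ p, Hm0 FX F (fun _ => prB le_rfl) p :=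
  hm_of hX hF ptB_onto (alg_prB X Y) (G := fun z => z.1.1) (fun _ => rfl) fun _ _ _ => rfl

include hF hX in
theorem ex_sc [DecidableEq J] (j : J) :
    ∃ s, Hm0 F FX (fun _ => scB (m := m) le_rfl (j := j) rfl (sgl_T0 j)) s :=
  hm_of hF hX pt_onto (alg_scB le_rfl X rfl (sgl_T0 j) Y)
    (G := fun p => ⟨(p, Pi.single j 1), sgl_T0 j p⟩) (fun _ => rfl) fun _ _ _ => rfl

theorem pm_pr {p} (h : Hm0 FX F (fun _ => prB le_rfl) p) : Pm FX F ⟨p, h.hol.cont⟩ :=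
  ⟨_, h, fun _ => proper_prB Y⟩

theorem pm_sc [DecidableEq J] {j : J} {s}
    (h : Hm0 F FX (fun _ => scB (m := m) le_rfl (j := j) rfl (sgl_T0 j)) s) :
    Pm F FX ⟨s, h.hol.cont⟩ := ⟨_, h, fun _ => (emb_scB le_rfl X rfl (sgl_T0 _) Y).2.isProperMap⟩

include ht hF hX in
/-- the projective bundle on the rings -/
theorem pb_PB (hm : ∀ j, ∑ a, m j a = 0) (σ : J ≃ Fin (r + 1)) (hE : E = D + r) {p}
    (h : Hm0 FX F (fun _ => prB le_rfl) p)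
    (l : Loc (prT FX (ptB (bor n) m 1)) (TT (fun i j => apB (t i j)) (TB m 1 μ 1))) :
    Pb (pbc ⟨p, h.hol.cont⟩) (pm_pr h).gy (cL l) r := by
  classical
  obtain ⟨s, hs⟩ := ex_sc hF hX (σ.symm 0)
  have := nc D F.T.X
  have := nc E FX.T.X
  exact (pm_pr h).pb hE (pm_sc hs) (hm_sec h hs (prB_scB _ _ _)) (c1_mem _)
    (span_pf _ (pm_pr h).proper l.lb (pfib_pos σ hm hX h ht.trB l))

section inc

variable {J' : Type} [Fintype J'] {m' : J' → Fin n → ℤ} {ι : J ↪ J'} {a₁ E₁ E₁' : ℕ}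
  (I : Inc g d (le_refl (nk n k)) ι m 1 (T0 n J) m' 1 (T0 n J'))
  {P : BB g k d (bor n) m' 1 (T0 n J') a₁ E₁'} {FP : Fl c P.vr E₁}

include hX in
theorem ex_inc (hP : Lf FP (ptB (bor n) m' 1) fun i j => apB (t i j)) :
    ∃ j, Hm0 FX FP (fun _ => I.map (bor n)) j :=
  hm_of hX hP ptB_onto (Inc.alg X I P) (G := I.fr) (fun _ => rfl) fun _ _ _ => rfl

variable {I} {j : FX.T.X → FP.T.X} (h : Hm0 FX FP (fun _ => I.map (bor n)) j)

theorem pm_inc : Pm FX FP ⟨j, h.hol.cont⟩ := ⟨_, h, fun _ => (Inc.emb X I le_rfl P).2.isProperMap⟩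

include h in
theorem inj_inc : Injective j := h.inj injective_id fun _ => I.inj le_rfl

theorem cL_inc {ε : ℤ}
    (l : Loc (prT FP (ptB (bor n) m' 1)) (TT (fun i j => apB (t i j)) (TB m' 1 μ ε)))
    (l' : Loc (prT FX (ptB (bor n) m 1)) (TT (fun i j => apB (t i j)) (TB m 1 μ ε))) :
    cL l' = pbc ⟨j, h.hol.cont⟩ (cL l) :=
  cL_pb h l l' (P.toE (Inc.crd X I)).cont (fun _ => rfl) (fun _ _ _ => rfl) (fun _ _ _ => tb_inc I)
    h.smo

include h in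
theorem pr_inc {p q} (hp : Hm0 FP F (fun _ => prB le_rfl) p)
    (hq : Hm0 FX F (fun _ => prB le_rfl) q) (x : FX.T.X) : p (j x) = q x :=
  hm_tri hp h hq (fun y => by obtain ⟨z, rfl⟩ := ptB_onto y; rfl) x

end inc

variable (W : WF) (hc : ∀ i, IsPreconnected (c.V i)) (hχ : ∑ a, χ a = 0)
  (l : Loc (prT F (BFr.pt _)) (TT (fun i j => bap (t i j)) (TN χ)))
include ht hF hc hχ

theorem xd {a₁ a₂ : ℕ}
    {Q : BB g k d (bor n) (fun _ : Fin (D + 1 + 1) => χ) 1 (T0 n _) a₁ (D' + (D + 1))}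
    {P : BB g k d (bor n) (mP χ (D + 1)) 1 (T0 n _) a₂ (D' + (D + 2))} {E₁ E₂ : ℕ}
    {FQ : Fl c Q.vr E₁} {FP : Fl c P.vr E₂}
    (hQ : Lf FQ (ptB (bor n) _ 1) fun i j => apB (t i j))
    (hP : Lf FP (ptB (bor n) _ 1) fun i j => apB (t i j)) {π}
    (h2 : Hm0 FP F (fun _ => prB le_rfl) π) :
    ∃ pr j s, XD W D F FQ FP pr ⟨π, h2.hol.cont⟩ j s (cL l)
      (cL (loc ht hP (sum_mP hχ _) 0 (by simp) 1)) (cL (loc ht hP (sum_mP hχ _) χ hχ 1)) := by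
  obtain ⟨S⟩ := P281Z.Pb.psex (D + 1)
  have dF := F.dim
  have dQ := FQ.dim
  have dP := FP.dim
  obtain ⟨pr, h1⟩ := ex_pr hF hQ
  obtain ⟨j, h3⟩ := ex_inc hQ inc_inf hP
  obtain ⟨s, h4⟩ := ex_sc hF hP none
  obtain ⟨κ, h5⟩ := FQ.ex_inv (Y := (vP S).X) (k₀ := fun _ => kP S le_rfl) fun i j a y => by
    obtain ⟨z, rfl⟩ := ptB_onto y
    exact (congrArg (kP S le_rfl) (hQ.tr i j a z) :)
  have h6 := smo_of_hol (h5.hol fun _ => (alg_kP S Q).hol)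
  have l0 := loc ht hP (sum_mP hχ _) χ hχ 0
  have lQ := loc ht hQ (fun _ => hχ) χ hχ 1
  have e1 := cL_inc h3 (loc ht hP (sum_mP hχ _) χ hχ 1) lQ
  refine ⟨_, _, _, le_rfl, by omega, by omega, hc, pm_pr h1, pm_pr h2, pm_inc h3, pm_sc h4,
    inj_inc h3, pr_inc h3 h2 h1, hm_sec h2 h4 (prB_scB _ _ _), fun x ⟨y, e⟩ => ?_, c1_mem _,
    c1_mem _, ?_, e1 ▸ pb_PB ht hF hQ (fun _ => hχ) (.refl _) (by omega) h1 lQ, ?_,
    (congrArg _ (pow_one _).symm).trans (van_off _ (r := 0) (fun _ => none) (fun _ => rfl)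
      (fun _ => rfl) h3 fun z e => (inc_inf.mem_range le_rfl).2 ⟨z.1.1.2.1, fun i l => ?_⟩),
    van_off _ some (fun _ => rfl) (fun _ => rfl) h4 fun z e => (mem_scB _ _ _).2 ?_⟩
  · obtain ⟨i, hi⟩ := c.cov (FQ.q x)
    have k1 : F.q y = FQ.q x := (h4.qt y).symm.trans ((congrArg FP.q e).trans (h3.qt x))
    have k2 := (h4.φt i y (k1 ▸ hi)).symm.trans ((congrArg (FP.φ i) e).trans (h3.φt i x hi))
    obtain ⟨z, k3⟩ := ptB_onto (FQ.φ i x)
    rw [← k3] at k2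
    exact ((mem_scB _ _ _ (z := inc_inf.fr z)).1 ⟨_, k2⟩).1 (extend_apply' _ _ _ (by simp))
  · exact (cL_add _ _ l0 fun _ _ _ r => tb_add (by rwa [zero_add, add_zero])).trans
      (congrArg _ (cL_pb h2 l l0 (G := fun z => z.1.1) (by fun_prop)
        (fun _ => rfl) (fun _ _ _ => rfl) (fun _ _ _ => tb_tn) h2.smo))
  · exact (e1.symm.trans (cc_crd lQ id (fun _ => rfl) (fun _ => rfl) (fun z => mem_T0.1 z.2) S
      (fun _ => rfl) ⟨κ, h6.cont⟩ h5)).symm ▸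
      mg_kah W FQ S.P (ps_kah S) (fun _ => alg_kP S Q) h5 even_two h6 (c1_mem _)
  · rcases i with _ | i
    exacts [e 0, (l ⟨i, rfl⟩).elim]
  · have k1 : ∀ i ≠ none, z.1.2 i = 0 := fun i l => by
      obtain ⟨i, rfl⟩ := Option.ne_none_iff_exists'.1 l
      exact e i
    exact ⟨fun l => mem_T0.1 z.2 (funext fun i => by
      rcases i with _ | i
      exacts [l, e i]), k1⟩

variable (hk : k ≤ nr n) (hD : D' + k = 2 * dimR g n + 2 * nr n)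
include hk hD

theorem xi_pbe : MG (wH W F) (-2) (cL l) ∧
    ∀ {a' E : ℕ} {X : BB g k d (bor n) (mP χ 0) 1 (T0 n _) a' (D' + 1)}
      {FX : Fl c X.vr E} {ρ}, (Lf FX (ptB (bor n) _ 1) fun i j => apB (t i j)) →
      ∀ h : Hm0 FX F (fun _ => prB le_rfl) ρ,
        Grd (wH W F) (wH W FX) 2 (P275S.pb (tm h.smo)).toLinearMap := by
  obtain ⟨FQ, hQ⟩ := ht.ex_fl (bP g d (m := fun _ : Fin (D + 1 + 1) => χ) (D := D' + (D + 1))
    (fun _ => hχ) hk (by rw [Fintype.card_fin]; omega))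
  obtain ⟨FP, hP⟩ := ht.ex_fl (bP g d (D := D' + (D + 2)) (sum_mP hχ (D + 1)) hk
    (by rw [Fintype.card_option, Fintype.card_fin]; omega))
  obtain ⟨π, h2⟩ := ex_pr hF hP
  obtain ⟨pr, j, s, H⟩ := xd ht hF W hc hχ l hQ hP h2
  refine ⟨H.xi, fun {a' E X FX ρ} hX h => ?_⟩
  have dF := F.dim
  have dX := FX.dim
  obtain ⟨ι, h7⟩ := ex_inc hX inc_fst hP
  have lE := loc ht hX (sum_mP hχ 0) 0 (by simp) 1
  refine H.pbe (by omega) (pm_inc h7) (pm_pr h) (inj_inc h7) (pr_inc h7 h2 h)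
    (cL_inc h7 _ lE ▸ pb_PB ht hF hX (sum_mP hχ 0) (finSuccEquiv 1).symm (by omega) h lE)
    (van_off _ (fun i => some i.succ) (fun _ => rfl) (fun _ => rfl) h7 fun z e =>
      (inc_fst.mem_range le_rfl).2 ⟨z.1.1.2.1, fun i l => ?_⟩)
  rcases i with _ | i
  · exact (l ⟨none, rfl⟩).elim
  · rcases Fin.eq_zero_or_eq_succ i with rfl | ⟨i, rfl⟩
    exacts [(l ⟨some 0, rfl⟩).elim, e i]

/-- **XI** -/
theorem xi : MG (wH W F) (-2) (cL l) := (xi_pbe ht hF W hc hχ l hk hD).1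

omit l in
/-- **PBE** -/
theorem pbe {X : BB g k d (bor n) (mP χ 0) 1 (T0 n _) a' (D' + 1)} {FX : Fl c X.vr E} {ρ}
    (hX : Lf FX (ptB (bor n) _ 1) fun i j => apB (t i j))
    (h : Hm0 FX F (fun _ => prB le_rfl) ρ) :
    Grd (wH W F) (wH W FX) 2 (P275S.pb (tm h.smo)).toLinearMap :=
  (xi_pbe ht hF W hc hχ (locT hF (P275LB.trN0 ht.mul) (P275LB.locN hk hχ)) hk hD).2 hX h

end Vale.Agent.P275IX
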