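import Vale.Agent.P275B.Lt
import Vale.Agent.P275BW.Wk
import Vale.Agent.P275TB.Man

/-!
# P275, flat bundles of the Betti varieties and their line bundles
-/

set_option linter.unusedSectionVars false

open Set Function Topology Matrix
open Vale.Agent.P275Z Vale.Agent.P275BW Vale.Agent.P275CH Vale.Agent.P275B Vale.Agent.P275TB
  Vale.Agent.P275MC
open Vale.Agent.P275RG (Alg)
open Vale.Agent.P275RL (cj_one cj_trans ex_tri)
open Vale.Agent.P281Z.Hm (Mx)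
open Vale.Agent.P281Z.Hg (Smo)
open P275S (c1 c1_iso c1_mul c1_pb c1_triv)
open P275CC (LB Nc PFib)

noncomputable section

namespace Vale.Agent.P275IX

/-- the first Chern class of the bundle of a character -/
abbrev cL {E Q : Type} [TopologicalSpace E] [TopologicalSpace Q] {π : E → Q}
    {T : E → E → ℂ → Prop} (l : Loc π T) : P275S.H ℂ (TopCat.of Q) := c1 (X := TopCat.of Q) l.lb

theorem vn_loc {E Q : Type} [TopologicalSpace E] [TopologicalSpace Q] [Nc Q] {π : E → Q}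
    {T : E → E → ℂ → Prop} (l : Loc π T) {r : ℕ} {φ : Fin r → E → ℂ} (hφ : ∀ i, Continuous (φ i))
    (e : ∀ i a b c, T a b c → φ i a = c * φ i b) {W : Set Q} (k : ∀ a, π a ∈ W → ∃ i, φ i a ≠ 0) :
    Vn (cL l ^ r) W := by
  choose s h1 h2 using fun i => l.ex_sec (hφ i) (e i)
  refine vn_secs h1 fun x hx => ?_
  obtain ⟨a, rfl⟩ := l.oq.surjective x
  obtain ⟨i, h⟩ := k a hx
  exact ⟨i, (h2 i).ge ⟨a, h, rfl⟩⟩

section tot

variable {b d d' D D' : ℕ} {B : Mn b} {c : Cv B} {M : Vr d} {M' : Vr d'} {E E' : Type}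
  [TopologicalSpace E] [TopologicalSpace E'] {F : Fl c M D} {F' : Fl c M' D'} {π : E → M.X}
  {π' : E' → M'.X} {a : c.ι → c.ι → E → E} {a' : c.ι → c.ι → E' → E'} {T T₁ T₂ : E → E → ℂ → Prop}
  {T' : E' → E' → ℂ → Prop} {f : M'.X → M.X} {G : E' → E} {u : F'.T.X → F.T.X}

theorem hm_of (h' : Lf F' π' a') (h : Lf F π a) (o : Surjective π') (hf : Alg M'.cp M.cp f)
    (e : ∀ z, f (π' z) = π (G z)) (k : ∀ i j z, G (a' i j z) = a i j (G z)) :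
    ∃ u, Hm0 F' F (fun _ => f) u :=
  F'.ex_hm F P281Z.holM_id (fun _ _ h => h) (fun _ => hf) fun i j l y => by
    obtain ⟨z, rfl⟩ := o y
    rw [h'.tr i j l, e, e, k]
    exact (h.tr i j l _).symm

theorem cL_pb (h : Hm0 F' F (fun _ => f) u) (l : Loc (prT F π) (TT a T))
    (l' : Loc (prT F' π') (TT a' T')) (hG : Continuous G) (e : ∀ z, f (π' z) = π (G z))
    (k : ∀ i j z, G (a' i j z) = a i j (G z)) (m : ∀ z z' s, T' z z' s → T (G z) (G z') s)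
    (hu : Smo D' D u) : cL l' = P275S.pb (tm hu) (cL l) :=
  (c1_iso (X := TopCat.of F'.T.X) (l.iso_pb l' (cont_mT hG) ⟨u, hu.cont⟩ (h.prT e)
    fun _ _ s r => ⟨r.1, k _ _ _ ▸ m _ _ s r.2⟩)).trans (c1_pb (tm hu) l.lb)

theorem cL_add (l : Loc (prT F π) (TT a T)) (l₁ : Loc (prT F π) (TT a T₁))
    (l₂ : Loc (prT F π) (TT a T₂))
    (e : ∀ z z' s, T z z' s → ∃ s₁ s₂, T₁ z z' s₁ ∧ T₂ z z' s₂ ∧ s = s₁ * s₂) :
    cL l = cL l₁ + cL l₂ :=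
  (c1_iso (X := TopCat.of F.T.X) (l.iso_mul l₁ l₂ fun _ _ s r =>
    let ⟨s₁, s₂, k1, k2, k3⟩ := e _ _ s r.2
    ⟨s₁, s₂, ⟨r.1, k1⟩, ⟨r.1, k2⟩, k3⟩)).trans (c1_mul (X := TopCat.of F.T.X) _ _)

theorem mem_hm (h : Hm0 F' F (fun _ => f) u) (w : ET c E) (k : π w.2.2 ∈ range f) :
    prT F π w ∈ range u :=
  h.mem_range.2 ⟨w.1, w.2.1, w.2.1.2, (q_prT w).symm, (φ_prT (F := F) w).symm ▸ k⟩

theorem hm_sec {s : M.X → M'.X} {v : F.T.X → F'.T.X} (h : Hm0 F' F (fun _ => f) u)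
    (h' : Hm0 F F' (fun _ => s) v) (e : ∀ y, f (s y) = y) (x : F.T.X) : u (v x) = x :=
  let ⟨i, hi⟩ := c.cov (F.q x)
  Fl.ext' (i := i) (mem_of_eq_of_mem ((h.comp h').qt x) hi) ((h.comp h').qt x)
    (((h.comp h').φt i x hi).trans (e _))

theorem hm_tri {d₂ D₂ : ℕ} {M₂ : Vr d₂} {F₂ : Fl c M₂ D₂} {f₁ u₁ f₂ u₂}
    (h : Hm0 F' F (fun _ => f) u) (h₁ : Hm0 F₂ F' (fun _ => f₁) u₁)
    (h₂ : Hm0 F₂ F (fun _ => f₂) u₂) (e : ∀ y, f (f₁ y) = f₂ y) (x : F₂.T.X) : u (u₁ x) = u₂ x :=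
  let ⟨i, hi⟩ := c.cov (F₂.q x)
  Fl.ext' (i := i) (mem_of_eq_of_mem ((h.comp h₁).qt x) hi) (((h.comp h₁).qt x).trans (h₂.qt x).symm)
    (((h.comp h₁).φt i x hi).trans ((e _).trans (h₂.φt i x hi).symm))

end tot

variable {n g k a D : ℕ} {d : ℤ} {J : Type} [Fintype J] {m : J → Fin n → ℤ} {e : J → ℤ}
  {S : Set (KB n J → ℂ)} {μ μ' : Fin n → ℤ} {ε ε' : ℤ} {z z' z'' : EB g k d S} {s s' : ℂ}

theorem mv_eqv {p p' : BFr g d (nk n k)} (h : p'.1.1 = p.1.1) (h' : Eqv p.1.1 p.1.2 p'.1.2) :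
    ∃ u, Mv u p p' ∧ ∀ μ, ch μ u = 1 := by
  obtain ⟨c, h'⟩ := h'
  refine ⟨_, ⟨exp_mem ((bor n).smul_mem (nk_bor p.2.1) c), det_exp _, ?_, h'⟩, fun μ =>
    Finset.prod_eq_one fun i _ => ?_⟩
  · rw [h, Matrix.mul_assoc, ((Commute.refl p.1.1).smul_right c).exp_right.eq,
      P275RL.inv_mul_can (det_exp _)]
  · rw [show NormedSpace.exp (c • p.1.1) i i = _ from (ex_tri (nk_bor p.2.1) c).2 i,
      p.2.1.1 i i le_rfl, mul_zero, Complex.exp_zero, _root_.one_zpow]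

theorem tb_eqv (h : z'.1.1.1.1 = z.1.1.1.1) (h' : Eqv z.1.1.1.1 z.1.1.1.2 z'.1.1.1.2)
    (h'' : z'.1.2 = z.1.2) : TB m e μ ε z' z 1 :=
  let ⟨u, h1, h2⟩ := mv_eqv h h'
  ⟨u, 1, h1, one_ne_zero, fun j => by rw [h2, h'', _root_.one_zpow, one_mul, one_mul],
    by rw [h2, _root_.one_zpow, one_mul]⟩

theorem tb_pt (h : TB m e μ ε z' z s) : ptB (bor n) m e z = ptB (bor n) m e z' :=
  let ⟨u, t, ⟨h1, h2, h3, h4⟩, h5, h6, _⟩ := h
  Quot.sound ⟨u, h1, h2, t, h5, h3, h4, h6⟩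

theorem mv_mul {q : Submodule ℂ (Mx (Fin n))} {u v : Mx (Fin n)} {p p' p'' : BFr g d q}
    (h : Mv u p p') (h' : Mv v p' p'') : Mv (u * v) p p'' :=
  ⟨mul_mem h.1 h'.1, by rw [det_mul]; exact mul_ne_zero h.2.1 h'.2.1,
    by simp only [h'.2.2.1, h.2.2.1, Matrix.mul_inv_rev, Matrix.mul_assoc],
    cj_trans h.2.2.2 h'.2.2.2⟩

theorem tb_mul (h : TB m e μ ε z z' s) (h' : TB m e μ ε z' z'' s') :
    TB m e μ ε z z'' (s * s') := by
  obtain ⟨u, t, h1, h2, h3, rfl⟩ := h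
  obtain ⟨u', t', k1, k2, k3, rfl⟩ := h'
  have := fun ν => ch_mul ν (mem_bor.1 k1.1) (mem_bor.1 h1.1)
  exact ⟨_, t * t', mv_mul k1 h1, mul_ne_zero h2 k2, fun j => by rw [h3, k3, this, mul_zpow]; ring,
    by rw [this, mul_zpow]; ring⟩

theorem tb_add (h : TB m e (μ + μ') (ε + ε') z z' s) :
    ∃ s₁ s₂, TB m e μ ε z z' s₁ ∧ TB m e μ' ε' z z' s₂ ∧ s = s₁ * s₂ :=
  let ⟨u, t, h1, h2, h3, h4⟩ := h
  ⟨_, _, ⟨u, t, h1, h2, h3, rfl⟩, ⟨u, t, h1, h2, h3, rfl⟩, by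
    rw [h4, ch_add _ _ h1.1 h1.2.1, zpow_add₀ h2]; ring⟩

theorem tb_zero (h : TB m e 0 0 z z' s) : s = 1 :=
  let ⟨_, _, _, _, _, h4⟩ := h
  by rw [h4, ch_zero, zpow_zero, one_mul]

theorem tb_tn (h : TB m e μ 0 z z' s) : TN μ z.1.1 z'.1.1 s :=
  let ⟨u, _, h1, _, _, h4⟩ := h
  ⟨u, h1, by rw [h4, zpow_zero, one_mul]⟩

theorem tb_sec {j : J} (h1 : m j = μ) (h2 : e j = ε) (h : TB m e μ ε z z' s) :
    z.1.2 j = s * z'.1.2 j :=
  let ⟨_, _, _, _, h3, h4⟩ := h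
  by rw [h3, h4, h1, h2, mul_assoc]

theorem tb_inc {J' : Type} [Fintype J'] {k' : ℕ} {hk : nk n k ≤ nk n k'} {ι : J ↪ J'} {m' e' S'}
    (I : Inc g d hk ι m e S m' e' S') (h : TB m e μ ε z z' s) :
    TB m' e' μ ε (I.fr z) (I.fr z') s := by
  obtain ⟨u, t, h1, h2, h3, h4⟩ := h
  refine ⟨u, t, h1, h2, fun j => ?_, h4⟩
  by_cases l : ∃ i, ι i = j
  · obtain ⟨j, rfl⟩ := l
    simpa only [Inc.fr, ι.injective.extend_apply, I.hm, I.he] using h3 j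
  · simp [Inc.fr, extend_apply' _ _ _ l]

theorem cont_bap {q : Submodule ℂ (Mx (Fin n))} (t : Aut g n) :
    Continuous (bap t : BFr g d q → _) :=
  (continuous_subtype_val.fst.prodMk ((cont_ap t).comp continuous_subtype_val.snd)).subtype_mk _

theorem cont_apB (t : Aut g n) : Continuous (apB t : EB g k d S → _) :=
  (((cont_bap t).comp continuous_subtype_val.fst).prodMk continuous_subtype_val.snd).subtype_mk _

theorem oq_ptB (X : BB g k d (bor n) m e S a D) :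
    IsOpenQuotientMap (ptB (bor n) m e : EB g k d S → _) :=
  ⟨ptB_onto, X.quo.continuous, X.qv'.isOpenMap⟩

variable {b : ℕ} {B : Mn b} {c : Cv B} {t : c.ι → c.ι → Aut g n}

variable (d k t) in
/-- the changes of the marking form a cocycle up to the one-parameter group of the residue -/
structure Fc : Prop where
  one : ∀ i, (c.V i).Nonempty → ∀ p : BFr g d (nk n k), Eqv p.1.1 (ap (t i i) p.1.2) p.1.2
  mul : ∀ i j l, (c.V i ∩ c.V j ∩ c.V l).Nonempty → ∀ p : BFr g d (nk n k),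
    Eqv p.1.1 (ap (t i j) (ap (t j l) p.1.2)) (ap (t i l) p.1.2)

namespace Fc

variable (h : Fc k d t)
include h

theorem tb_one {i : c.ι} (hi : (c.V i).Nonempty) (z : EB g k d S) :
    TB m e μ ε z (apB (t i i) z) 1 := tb_eqv rfl (h.one i hi z.1.1) rfl

theorem trB : Tr (fun i j => (apB (t i j) : EB g k d S → _)) (TB m e μ ε) :=
  ⟨fun _ _ _ _ _ ⟨u, r, ⟨h1, h2, h3, h4⟩, h5⟩ => ⟨u, r, ⟨h1, h2, h3, cj_ap _ h2 h4⟩, h5⟩,
    fun _ _ _ _ _ => tb_mul, fun i j l k z => tb_eqv rfl (h.mul i j l k z.1.1).symm rfl⟩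

/-- the flat bundle -/
theorem ex_fl (X : BB g k d (bor n) m e S a D) :
    ∃ F : Fl c X.vr (b + D), Lf F (ptB (bor n) m e) fun i j => apB (t i j) := by
  obtain ⟨F, hF⟩ := flex b D B c X.vr (fun i j => auB (t i j)) ⟨fun _ _ _ => alg_auB X _,
    fun i k x => by
      obtain ⟨z, rfl⟩ := ptB_onto x
      exact tb_pt (h.tb_one (μ := 0) (ε := 0) k z), fun i j l k x => by
      obtain ⟨z, rfl⟩ := ptB_onto x
      exact (tb_pt ((h.trB (μ := 0) (ε := 0)).coc i j l k z)).symm⟩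
  exact ⟨F, fun _ _ => cont_apB _, fun i j _ z => by rw [hF]; rfl⟩

end Fc

end Vale.Agent.P275IX
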